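import Vale.Agent.P273.H857.Stm

/-!
Row GP-DEC: the primitives tend to zero at minus infinity.
-/

open Complex Set Filter Topology MeasureTheory
open scoped ContDiff

namespace Vale.Agent.P273.H3

open Vale.Agent.P273.H857

noncomputable section

/-- straight paths -/
theorem isPath_line (σ : ℝ) : IsPath fun t => σ * t :=
  ⟨contDiff_const.mul contDiff_id, by simp, |σ|, fun t => by
    have : deriv (fun t : ℝ => σ * t) t = σ := by
      rw [deriv_const_mul _ differentiableAt_id]; simp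
    rw [this]⟩

theorem deriv_line (σ t : ℝ) : deriv (fun t : ℝ => σ * t) t = σ := by
  rw [deriv_const_mul _ differentiableAt_id]; simp

/-- the upward straight path passes above all roots -/
theorem adm_up {b : C6} {M R : ℝ} (hM : ∀ l, ‖b l‖ ≤ M) (hR : 2 * M < R) :
    Adm ∅ b (-(R : ℂ)) fun t => 1 * t := by
  refine ⟨isPath_line 1, fun l _ _ => ⟨fun h => absurd h (Finset.notMem_empty _), fun _ => ?_⟩⟩
  have h1 := (abs_le.1 ((abs_re_le_norm (b l)).trans (hM l))).1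
  have h2 := (abs_le.1 ((abs_im_le_norm (b l)).trans (hM l))).2
  simp only [sub_neg_eq_add, add_re, add_im, ofReal_re, ofReal_im]
  linarith

/-- the downward straight path passes below all roots -/
theorem adm_dn {b : C6} {M R : ℝ} (hM : ∀ l, ‖b l‖ ≤ M) (hR : 2 * M < R) :
    Adm Finset.univ b (-(R : ℂ)) fun t => (-1) * t := by
  refine ⟨isPath_line (-1), fun l _ _ => ⟨fun _ => ?_, fun h => absurd (Finset.mem_univ _) h⟩⟩
  have h1 := (abs_le.1 ((abs_re_le_norm (b l)).trans (hM l))).1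
  have h2 := (abs_le.1 ((abs_im_le_norm (b l)).trans (hM l))).1
  simp only [sub_neg_eq_add, add_re, add_im, ofReal_re, ofReal_im]
  linarith

/-- bound of the integrand on the two straight paths -/
theorem norm_igd_le {k : ℕ} (hk : k ≤ 1) (B : Finset (Fin 6)) {b : C6} {M R σ : ℝ}
    (hσ : |σ| = 1) (hM : ∀ l, ‖b l‖ ≤ M) (hR : 6 * M ≤ R) (hR1 : 1 ≤ R) {t : ℝ} (ht : 0 ≤ t) :
    ‖igd k B b (-(R : ℂ)) (fun t => σ * t) t‖ ≤ 864 / (t + R) ^ 2 := by
  have hS : 1 ≤ t + R := by linarith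
  have hS0 : 0 < t + R := by linarith
  set z := gam (-(R : ℂ)) (fun t => σ * t) t with hz
  have hre : z.re = -R + t := by rw [hz, gam_re]; simp
  have him : z.im = σ * t := by rw [hz, gam_im]; simp
  have h1 : R - t ≤ ‖z‖ := by
    have h := abs_re_le_norm z
    rw [hre] at h
    have := neg_abs_le (-R + t)
    linarith
  have h2 : t ≤ ‖z‖ := by
    have h := abs_im_le_norm z
    rw [him, abs_mul, hσ, one_mul, abs_of_nonneg ht] at h
    exact h
  have h3 : ‖z‖ ≤ 2 * (t + R) := by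
    have h := norm_le_abs_re_add_abs_im z
    rw [hre, him, abs_mul, hσ, one_mul, abs_of_nonneg ht] at h
    have h' : |(-R + t)| ≤ R + t := by
      rw [abs_le]; constructor <;> linarith
    linarith
  have h4 : ∀ l, (t + R) / 6 ≤ ‖z - b l‖ := fun l => by
    have := norm_sub_norm_le z (b l)
    have := hM l
    linarith
  have h5 : ((t + R) / 6) ^ 3 ≤ ‖sq B b z‖ := by
    rw [H857.sq, norm_prod]
    have h6 : ∀ l ∈ (Finset.univ : Finset (Fin 6)), Real.sqrt ((t + R) / 6) ≤ ‖br B l (z - b l)‖ :=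
      fun l _ => by rw [norm_br]; exact Real.sqrt_le_sqrt (h4 l)
    have h7 := Finset.prod_le_prod (fun l _ => Real.sqrt_nonneg _) h6
    rw [Finset.prod_const, Finset.card_univ, Fintype.card_fin] at h7
    have h8 : Real.sqrt ((t + R) / 6) ^ 6 = ((t + R) / 6) ^ 3 := by
      rw [show (6 : ℕ) = 2 * 3 from rfl, pow_mul, Real.sq_sqrt (by positivity)]
    rwa [h8] at h7
  have h9 : ‖z‖ ^ k ≤ 2 * (t + R) := by
    interval_cases k
    · simp; linarith
    · simpa using h3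
  have h10 : ‖(1 : ℂ) + (σ : ℂ) * I‖ ≤ 2 := by
    refine (norm_add_le _ _).trans ?_
    simp only [norm_one, norm_mul, norm_real, Real.norm_eq_abs, hσ, norm_I]
    norm_num
  have h11 : igd k B b (-(R : ℂ)) (fun t => σ * t) t = z ^ k / sq B b z * (1 + (σ : ℂ) * I) := by
    rw [igd, ← hz, deriv_line]
  rw [h11, norm_mul, norm_div, norm_pow]
  have h12 : (0 : ℝ) < ((t + R) / 6) ^ 3 := by positivity
  calc ‖z‖ ^ k / ‖sq B b z‖ * ‖(1 : ℂ) + (σ : ℂ) * I‖
      ≤ (2 * (t + R)) / ((t + R) / 6) ^ 3 * 2 := by gcongr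
    _ = 864 / (t + R) ^ 2 := by field_simp; norm_num

theorem integrable_dom : IntegrableOn (fun t : ℝ => (t + 1) ^ (-(3 / 2) : ℝ)) (Ioi 0) :=
  integrableOn_add_rpow_Ioi_of_lt (by norm_num) (by norm_num)

/-- bound of the integral -/
theorem norm_PG_le {k : ℕ} (hk : k ≤ 1) (B : Finset (Fin 6)) {b : C6} {M R σ : ℝ}
    (hσ : |σ| = 1) (hM : ∀ l, ‖b l‖ ≤ M) (hR : 6 * M ≤ R) (hR1 : 1 ≤ R) :
    ‖PG k B b (-(R : ℂ)) fun t => σ * t‖ ≤
      864 * (∫ t in Ioi (0 : ℝ), (t + 1) ^ (-(3 / 2) : ℝ)) * R ^ (-(1 / 2) : ℝ) := by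
  rw [PG, norm_neg]
  have h : ∀ᵐ t ∂(volume.restrict (Ioi (0 : ℝ))),
      ‖igd k B b (-(R : ℂ)) (fun t => σ * t) t‖ ≤
        864 * R ^ (-(1 / 2) : ℝ) * (t + 1) ^ (-(3 / 2) : ℝ) := by
    refine (ae_restrict_iff' measurableSet_Ioi).2 (Eventually.of_forall fun t ht => ?_)
    have ht' : (0 : ℝ) < t := ht
    refine (norm_igd_le hk B hσ hM hR hR1 ht'.le).trans ?_
    have h0 : 0 < t + R := by linarith
    have e : (864 : ℝ) / (t + R) ^ 2 =
        864 * (t + R) ^ (-(1 / 2) : ℝ) * (t + R) ^ (-(3 / 2) : ℝ) := by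
      rw [mul_assoc, ← Real.rpow_add h0]
      norm_num
      rw [div_eq_mul_inv]
    rw [e]
    have a1 : (t + R) ^ (-(1 / 2) : ℝ) ≤ R ^ (-(1 / 2) : ℝ) :=
      Real.rpow_le_rpow_of_nonpos (by linarith) (by linarith) (by norm_num)
    have a2 : (t + R) ^ (-(3 / 2) : ℝ) ≤ (t + 1) ^ (-(3 / 2) : ℝ) :=
      Real.rpow_le_rpow_of_nonpos (by linarith) (by linarith) (by norm_num)
    have a3 : 0 ≤ (t + R) ^ (-(3 / 2) : ℝ) := Real.rpow_nonneg h0.le _
    have a4 : 0 ≤ R ^ (-(1 / 2) : ℝ) := Real.rpow_nonneg (by linarith) _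
    gcongr
  refine (norm_integral_le_of_norm_le (integrable_dom.const_mul _) h).trans (le_of_eq ?_)
  rw [integral_const_mul]
  ring

/-- **row GP-DEC** -/
theorem stmDEC (hINV : StmINV) : StmDEC := by
  intro k b hk hb
  obtain ⟨M, hM⟩ : ∃ M : ℝ, ∀ l, ‖b l‖ ≤ M := ⟨‖b‖, fun l => norm_le_pi_norm b l⟩
  have key : ∀ (B : Finset (Fin 6)) (σ : ℝ), |σ| = 1 →
      (∀ R : ℝ, 2 * M < R → Adm B b (-(R : ℂ)) fun t => σ * t) →
      Tendsto (fun R : ℝ => P k B b (-(R : ℂ))) atTop (𝓝 0) := by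
    intro B σ hσ hA
    rw [tendsto_zero_iff_norm_tendsto_zero]
    have hlim : Tendsto (fun R : ℝ => 864 * (∫ t in Ioi (0 : ℝ), (t + 1) ^ (-(3 / 2) : ℝ)) *
        R ^ (-(1 / 2) : ℝ)) atTop (𝓝 0) := by
      have := (tendsto_rpow_neg_atTop (y := 1 / 2) (by norm_num)).const_mul
        (864 * (∫ t in Ioi (0 : ℝ), (t + 1) ^ (-(3 / 2) : ℝ)))
      simpa using this
    refine tendsto_of_tendsto_of_tendsto_of_le_of_le' tendsto_const_nhds hlim
      (Eventually.of_forall fun R => norm_nonneg _) ?_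
    filter_upwards [eventually_gt_atTop (2 * M), eventually_ge_atTop (6 * M),
      eventually_ge_atTop (1 : ℝ)] with R h1 h2 h3
    have hA' := hA R h1
    have hex : ∃ g, Adm B b (-(R : ℂ)) g := ⟨_, hA'⟩
    have e : P k B b (-(R : ℂ)) = PG k B b (-(R : ℂ)) fun t => σ * t := by
      rw [P, dif_pos hex]
      exact (hINV k B b _ hk hb).2 _ _ hex.choose_spec hA'
    rw [e]
    exact norm_PG_le hk B hσ hM h2 h3
  exact ⟨key ∅ 1 (by simp) fun R hR => adm_up hM hR,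
    key Finset.univ (-1) (by simp) fun R hR => adm_dn hM hR⟩

end

end Vale.Agent.P273.H3
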